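import Vale.Agent.P011.H706.C2.Step
import Vale.Agent.P011.H552.C2.Pres

/-!
The norm-one group of a quaternion algebra over a global function field of characteristic two: the
elements of odd level at the ramified places are products of commutators of elements of norm one
with elements of the same level.
-/

set_option linter.unusedSectionVars false

namespace Vale.Agent.P011.H706.C2

open Vale.Agent.P011.H738 Vale.Agent.P011.H271 Vale.Agent.P011.H477.C2
open Vale.Agent.P011.H974.R6 (Ev)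
open scoped commutatorElement

variable {F : Type} [Field F] [GFF F] {a b : F}

/-- `b ≠ 0` for an anisotropic form. -/
theorem Ani.b_ne (hA : Ani a b) : b ≠ 0 := by
  rintro rfl
  have h := hA ⟨0, 0, 1, 0⟩ (by simp [nr, nf])
  have h1 := congrArg QuaternionAlgebra.imJ h
  exact one_ne_zero h1

theorem Ani.a_ne (hA : Ani a b) : a ≠ 0 := by
  rintro rfl
  have h := hA ⟨0, 1, 0, 0⟩ (by simp [nr, nf])
  have h1 := congrArg QuaternionAlgebra.imI h
  exact one_ne_zero h1

/-- The set of the ramified places is finite. -/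
theorem ram_finite (h2 : (2 : F) = 0) (hA : Ani a b) : {v : Place F | Ram a b v}.Finite := by
  refine (H465.R6B.finite_not_units hA.a_ne hA.b_ne).subset fun v hv h => hv ?_
  refine loc_int h.1.le ?_ one_ne_zero (s := b) (by rw [h.2, map_one, one_pow])
  have h4 : (4 : F) = 0 := by
    have : (4 : F) = 2 * 2 := by norm_num
    rw [this, h2, mul_zero]
  rw [h4, zero_mul, sub_zero, map_one]

/-- A division algebra ramifies somewhere. -/
theorem ram_nonempty (h2 : (2 : F) = 0) (hA : Ani a b) : ∃ v : Place F, Ram a b v := by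
  by_contra h
  push Not at h
  have h4 : (4 : F) = 0 := by
    have : (4 : F) = 2 * 2 := by norm_num
    rw [this, h2, mul_zero]
  obtain ⟨x, y, hxy⟩ := hasse_nf (a := a) (b := b) (by rw [h4]; simp) fun v => not_not.mp (h v)
  have h1 : nr (⟨x, y, 1, 0⟩ : Q2 a b) = 0 := by
    simp only [nr]
    rw [hxy]
    simp only [nf]
    ring
  have h3 := congrArg QuaternionAlgebra.imJ (hA _ h1)
  exact one_ne_zero h3

/-- The condition on the levels: odd at the ramified places. -/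
def Clo (a b : F) (T : Finset (Place F)) (m : F) (y : Q2 a b) : Prop :=
  (∀ v : Place F, Ram a b v → v.abv (tr y) < 1 ∧ ¬ Ev v (algebraMap F v.comp (tr y))) ∧
    ∀ v ∈ T, v.abv (tr y) ≤ v.abv m

/-- The condition on the levels of the second element. -/
def Lev (a b : F) (T : Finset (Place F)) (m : F) (z : Q2 a b) : Prop :=
  ∀ v ∈ T, v.abv (tr z) ≤ v.abv m

/-- An odd element is not a square. -/
theorem not_sq_of_odd {v : Place F} {τ : F} (hτ0 : τ ≠ 0)
    (h : ¬ Ev v (algebraMap F v.comp τ)) : ¬ IsSquare τ := by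
  rintro ⟨c, rfl⟩
  apply h
  have hc : c ≠ 0 := fun h => hτ0 (by rw [h, mul_zero])
  rw [map_mul, ← sq]
  exact H974.R6.ev_sq ((map_ne_zero _).mpr hc)

/-- The data in the algebra itself. -/
theorem dat_gen (h2 : (2 : F) = 0) (hA : Ani a b) {T : Finset (Place F)} {m : F} {y : Q2 a b}
    (hy : nr y = 1) (hy1 : y ≠ 1) (hC : Clo a b T m y) {r : F} (hr : r ≠ 0) :
    ∃ z h₁ h₂ : Q2 a b, nr z = 1 ∧ tr (y * z) = tr z ∧ h₁ * y = y * h₁ ∧ h₂ * z = z * h₂ ∧
      nr h₁ ≠ 0 ∧ nr h₂ ≠ 0 ∧ r = nr h₁ * nr h₂ ∧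
      ∀ v : Place F, Ram a b v → v.abv (tr z) = v.abv (tr y) := by
  have hP := H552.C2.exists_pres h2 hA y hy hy1
  have hlev := hC.1
  obtain ⟨τ, hτe⟩ : ∃ τ, τ = tr y := ⟨_, rfl⟩
  rw [← hτe] at hP hlev ⊢
  obtain ⟨hτ0, b', φ, hb', hn, ht, hφ, hφy, hA', hram⟩ := hP
  obtain ⟨v0, hv0⟩ := ram_nonempty h2 hA
  have hτ : ¬ IsSquare τ := not_sq_of_odd hτ0 (hlev v0 hv0).2
  obtain ⟨z, h₁, h₂, g1, g2, g3, g4, g5, g6, g7, g8⟩ := dat_pres (b := b') (τ := τ) (r := r)
    h2 hb' hτ hr (by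
      intro v
      by_cases hv : Ram a b v
      · exact Or.inl (hlev v hv)
      · right
        rw [hram v] at hv
        exact not_not.mp hv) (ram_finite h2 hA).toFinset (by
      intro v hv
      rw [← hram v]
      exact (Set.Finite.mem_toFinset _).mp hv)
  have hφy' : φ (yt b' τ) = y := hφy
  refine ⟨φ z, φ h₁, φ h₂, by rw [hn, g1], ?_, ?_, ?_, by rw [hn]; exact g5, by rw [hn]; exact g6,
    by rw [hn, hn]; exact g7, ?_⟩
  · rw [← hφy', ← map_mul, ht, ht, g2]
  · rw [← hφy', ← map_mul, g3, map_mul]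
  · rw [← map_mul, g4, map_mul]
  · intro v hv
    rw [ht]
    exact g8 v ((Set.Finite.mem_toFinset _).mpr hv)

theorem dat1 (h2 : (2 : F) = 0) (hA : Ani a b) {T : Finset (Place F)}
    (hT : ∀ v ∈ T, Ram a b v) {m : F} : Dat1 (Clo a b T m) (Lev a b T m) := by
  intro y hy hy1 hC r hr
  obtain ⟨z, h₁, h₂, g1, g2, g3, g4, g5, g6, g7, g8⟩ := dat_gen h2 hA hy hy1 hC hr
  refine ⟨z, h₁, h₂, g1, g2, g3, g4, g5, g6, g7, fun v hv => ?_⟩
  rw [g8 v (hT v hv)]
  exact hC.2 v hv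

theorem dat2 (h2 : (2 : F) = 0) (hA : Ani a b) {T : Finset (Place F)}
    (hT : ∀ v ∈ T, Ram a b v) {m : F} : Dat2 (Clo a b T m) := by
  intro y hy hy1 hC
  obtain ⟨z, h₁, h₂, g1, g2, -, -, -, -, -, g8⟩ := dat_gen h2 hA hy hy1 hC one_ne_zero
  obtain ⟨v0, hv0⟩ := ram_nonempty h2 hA
  have htz : ∀ v, Ram a b v → ‖algebraMap F v.comp (tr z)‖ = ‖algebraMap F v.comp (tr y)‖ := by
    intro v hv
    rw [norm_alg, norm_alg]
    exact g8 v hv
  have hty0 : tr y ≠ 0 := by
    intro h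
    have h3 := nr_sub_one hy
    rw [h, h2, sub_zero] at h3
    exact hy1 (sub_eq_zero.mp (hA _ h3))
  refine ⟨z, g1, g2, fun h => ?_, fun v hv => ⟨?_, ?_⟩, fun v hv => ?_⟩
  · have h3 := nr_intertwine (w := y * z) (z := z) (y := y)
      (by rw [nr_mul, hy, g1, mul_one]) g1 g2 rfl
    have h8 : nr (0 : Q2 a b) = 0 := by simp [nr, nf]
    rw [h, h8] at h3
    have h9 : tr y = tr z ^ 2 := by linear_combination -h3 - h2
    apply (hC.1 v0 hv0).2
    rw [h9, map_pow]
    refine H974.R6.ev_sq ((map_ne_zero _).mpr fun h10 => hty0 ?_)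
    rw [h9, h10]
    ring
  · rw [g8 v hv]
    exact (hC.1 v hv).1
  · rintro ⟨c, hc, h3⟩
    exact (hC.1 v hv).2 ⟨c, hc, by rw [← htz v hv]; exact h3⟩
  · rw [g8 v (hT v hv)]
    exact hC.2 v hv

/-- The elements of odd level at the ramified places. -/
theorem mp_odd (h2 : (2 : F) = 0) (hA : Ani a b) {T : Finset (Place F)}
    (hT : ∀ v ∈ T, Ram a b v) {m : F}
    (N : Subgroup (SL a b)) [N.Normal]
    (hN : ∀ u z : SL a b, (∀ v ∈ T, v.abv (tr ((z : (Q2 a b)ˣ) : Q2 a b)) ≤ v.abv m) → ⁅u, z⁆ ∈ N)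
    (g : SL a b) (h : Clo a b T m ((g : (Q2 a b)ˣ) : Q2 a b)) : g ∈ N := by
  refine mem_commH (C := Clo a b T m) (E := Lev a b T m) hA (fun y _ hy => hy.2) ?_
    (dat1 h2 hA hT) (dat2 h2 hA hT) N hN g h
  intro g z _ hE v hv
  rw [tr_conj]
  exact hE v hv

end Vale.Agent.P011.H706.C2
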