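import Vale.Agent.P011.H477.C2.TR

/-!
Quaternion algebras with a generator of trace one (for characteristic two): letters.
-/

namespace Vale.Agent.P011.H706.C2

open Vale.Agent.P011.H738 Vale.Agent.P011.H271 Vale.Agent.P011.H477.C2

section quat

variable {F : Type} [Field F]

/-- The quaternion algebra with `i ^ 2 = i - a`, `j ^ 2 = b`, `j i = (1 - i) j`. -/
abbrev Q2 (a b : F) : Type := QuaternionAlgebra F (-a) 1 b

/-- The reduced norm. -/
def nr {a b : F} (x : Q2 a b) : F := nf a x.re x.imI - b * nf a x.imJ x.imK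

/-- The reduced trace. -/
def tr {a b : F} (x : Q2 a b) : F := 2 * x.re + x.imI

/-- The reduced norm form is anisotropic. -/
def Ani (a b : F) : Prop := ∀ x : Q2 a b, nr x = 0 → x = 0

theorem nr_mul {a b : F} (x y : Q2 a b) : nr (x * y) = nr x * nr y := by
  simp only [nr, nf, QuaternionAlgebra.re_mul, QuaternionAlgebra.imI_mul,
    QuaternionAlgebra.imJ_mul, QuaternionAlgebra.imK_mul]
  ring

theorem nr_one {a b : F} : nr (1 : Q2 a b) = 1 := by
  simp [nr, nf]

/-- The norm-one group. -/
def SL (a b : F) : Subgroup (Q2 a b)ˣ where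
  carrier := {x | nr (x : Q2 a b) = 1}
  mul_mem' := by
    intro x y hx hy
    change nr ((x * y : (Q2 a b)ˣ) : Q2 a b) = 1
    rw [Units.val_mul, nr_mul, hx, hy, one_mul]
  one_mem' := nr_one
  inv_mem' := by
    intro x hx
    have h : nr ((x * x⁻¹ : (Q2 a b)ˣ) : Q2 a b) = 1 := by rw [mul_inv_cancel]; exact nr_one
    rw [Units.val_mul, nr_mul] at h
    have hx' : nr (x : Q2 a b) = 1 := hx
    rw [hx', one_mul] at h
    exact h

/-- The place `v` ramifies in the quaternion algebra. -/
def Ram (a b : F) (v : Place F) : Prop :=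
  ¬ ∃ x y : v.comp, nf (algebraMap F v.comp a) x y = algebraMap F v.comp b

end quat

section frame

variable {k D : Type} [Field k] [Ring D] [StarRing D] [Algebra k D]
    {F : Type} [Field F] [Algebra k F]

/-- Characteristic two: a quaternion algebra over the symmetric subfield `F`, with generators `i`
and `j`, on which the involution is the canonical one. -/
structure QFrF2 (ι : F →ₐ[k] D) (α β : F) (i j : D) : Prop where
  sym : ∀ x, star (ι x) = ι x
  si : star i = i + 1
  sj : star j = j
  ii : i * i = i + ι α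
  jj : j * j = ι β
  ji : j * i = (i + 1) * j
  b0 : β ≠ 0
  ci : ∀ x, ι x * i = i * ι x
  cj : ∀ x, ι x * j = j * ι x

/-- Characteristic two: the element `u = p₀ + p₁ i + p₂ j + p₃ i j` of norm one of a quaternion
algebra over a symmetric subfield. -/
structure QEltF2 (ι : F →ₐ[k] D) (α β : F) (i j : D) (p₀ p₁ p₂ p₃ : F) (u : D) : Prop where
  fr : QFrF2 ι α β i j
  nrm : nf α p₀ p₁ + β * nf α p₂ p₃ = 1
  eq : u = ι p₀ + ι p₁ * i + ι p₂ * j + ι p₃ * (i * j)

/-- The set `M` contains the elements of norm one of the quaternion subalgebras which are close to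
one at the places where the quaternion algebra ramifies and at the places of `T`. -/
def HQ1F2 (k : Type) {D : Type} [Field k] [Ring D] [StarRing D] [Algebra k D] {N : ℕ}
    (B : Module.Basis (Fin N) k D) (T : Finset (Place k)) (ε : ℝ) (M : Set D) : Prop :=
  ∀ (F : Type) [Field F] [GFF F] [Algebra k F] (ι : F →ₐ[k] D) (α β : F) (i j : D)
    (p₀ p₁ p₂ p₃ : F) (u : D), QEltF2 ι α β i j p₀ p₁ p₂ p₃ u →
    (∀ ω : Place F, Ram α β ω → ω.abv p₁ < 1) →
    (∀ v ∈ T, ∀ l, v.abv (B.repr (u - 1) l) < ε) → u ∈ M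

end frame

end Vale.Agent.P011.H706.C2
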