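import Vale.Agent.P011.H706.C2.Alg
import Vale.Agent.P011.H983.GenPos2

/-!
Characteristic two: the elements of trace zero of a quaternion algebra: existence of the elements
with a given square, conjugacy.
-/

namespace Vale.Agent.P011.H706.C2

open Vale.Agent.P011.H477.C2

section p

variable {F : Type} [Field F] {a b : F}

/-- The halves with respect to a nonsquare. -/
theorem halves (h2 : (2 : F) = 0) {X : F} (hX : ∀ s : F, ∃ u v, s = u ^ 2 + X * v ^ 2) {n : F}
    (hn : ¬ IsSquare n) (s : F) : ∃ u v : F, s = u ^ 2 + n * v ^ 2 := by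
  obtain ⟨u0, v0, h0⟩ := hX n
  have hv0 : v0 ≠ 0 := by
    rintro rfl
    exact hn ⟨u0, by rw [h0]; ring⟩
  obtain ⟨u, v, h⟩ := hX s
  refine ⟨u + u0 * (v / v0), v / v0, ?_⟩
  rw [h, h0]
  field_simp
  linear_combination (-(u * u0 * v * v0 + u0 ^ 2 * v ^ 2)) * h2

/-- **Every element of the base field is the square of an element of trace zero.** -/
theorem exists_p (h2 : (2 : F) = 0) {X : F} (hX : ∀ s : F, ∃ u v, s = u ^ 2 + X * v ^ 2)
    (hb : b ≠ 0) (n : F) : ∃ p : Q2 a b, tr p = 0 ∧ nr p = n ∧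
      (¬ IsSquare n → ¬ (p.imJ = 0 ∧ p.imK = 0)) := by
  by_cases hn : IsSquare n
  · obtain ⟨m, rfl⟩ := hn
    refine ⟨⟨m, 0, 0, 0⟩, ?_, ?_, fun h => absurd ⟨m, rfl⟩ h⟩
    · simp only [tr]
      linear_combination m * h2
    · simp only [nr, nf]
      ring
  -- a value of the second half of the norm form which is not a square
  obtain ⟨f1, f2, hf⟩ : ∃ f1 f2 : F, ¬ IsSquare (b * nf a f1 f2) := by
    by_cases hbs : IsSquare b
    · obtain ⟨β, rfl⟩ := hbs
      have hβ : β ≠ 0 := fun h => hb (by rw [h, mul_zero])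
      have key : ∀ s : F, ¬ IsSquare s → ¬ IsSquare (β * β * s) := by
        rintro s hs ⟨t, ht⟩
        exact hs ⟨t / β, by field_simp; linear_combination ht⟩
      by_cases has : IsSquare a
      · obtain ⟨α, rfl⟩ := has
        refine ⟨1, n, key _ ?_⟩
        rintro ⟨t, ht⟩
        apply hn
        refine ⟨t + (1 + α * n), ?_⟩
        simp only [nf] at ht
        linear_combination ht + (-(t * (1 + α * n)) + α * n - (1 + α * n) ^ 2) * h2
      · refine ⟨0, 1, key _ ?_⟩
        have : nf a 0 1 = a := by simp only [nf]; ring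
        rwa [this]
    · refine ⟨1, 0, ?_⟩
      have : b * nf a 1 0 = b := by simp only [nf]; ring
      rwa [this]
  obtain ⟨u, v, huv⟩ := halves h2 hX hn (b * nf a f1 f2)
  have hv : v ≠ 0 := by
    rintro rfl
    exact hf ⟨u, by rw [huv]; ring⟩
  refine ⟨⟨u / v, 0, f1 / v, f2 / v⟩, ?_, ?_, fun _ h => ?_⟩
  · simp only [tr]
    linear_combination (u / v) * h2
  · have e1 : nf a (f1 / v) (f2 / v) = nf a f1 f2 / v ^ 2 := by
      simp only [nf]
      field_simp
    have e2 : b * (nf a f1 f2 / v ^ 2) = (u / v) ^ 2 + n := by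
      rw [← mul_div_assoc, huv]
      field_simp
    simp only [nr]
    rw [e1, e2]
    simp only [nf]
    linear_combination (-n) * h2
  · obtain ⟨h3, h4⟩ := h
    have h3' : f1 / v = 0 := h3
    have h4' : f2 / v = 0 := h4
    have hf1 : f1 = 0 := (div_eq_zero_iff.mp h3').resolve_right hv
    have hf2 : f2 = 0 := (div_eq_zero_iff.mp h4').resolve_right hv
    apply hf
    rw [hf1, hf2]
    exact ⟨0, by simp [nf]⟩

end p

section conj

variable {L : Type} [Field L] {a b : L}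

/-- Two elements of trace zero outside of the base field with the same norm are conjugate. -/
theorem exists_conj (h2 : (2 : L) = 0) (hb : b ≠ 0) {p q : Q2 a b} (hp : tr p = 0)
    (hq : tr q = 0) (hpn : ¬ (p.imJ = 0 ∧ p.imK = 0)) (hqn : ¬ (q.imJ = 0 ∧ q.imK = 0))
    (hpq : nr q = nr p) : ∃ g : Q2 a b, nr g ≠ 0 ∧ g * p = q * g := by
  have hpp : p * p = algebraMap L (Q2 a b) (-nr p) := by
    rw [sq_eq, hp, zero_smul, zero_sub, map_neg]
  have hqq : q * q = algebraMap L (Q2 a b) (-nr p) := by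
    rw [sq_eq, hq, hpq, zero_smul, zero_sub, map_neg]
  have key : ∀ x : Q2 a b, (q * x + x * p) * p = q * (q * x + x * p) := by
    intro x
    calc (q * x + x * p) * p = q * x * p + x * (p * p) := by noncomm_ring
      _ = (q * q) * x + q * x * p := by
          rw [hpp, hqq, ← Algebra.commutes, add_comm]
      _ = q * (q * x + x * p) := by noncomm_ring
  by_contra hcon
  push Not at hcon
  have hall : ∀ x : Q2 a b, nr (q * x + x * p) = 0 := by
    intro x
    by_contra h
    exact hcon _ h (key x)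
  have hpI : p.imI = 0 := by
    simp only [tr] at hp
    linear_combination hp - p.re * h2
  have hqI : q.imI = 0 := by
    simp only [tr] at hq
    linear_combination hq - q.re * h2
  obtain ⟨p0, p1, p2, p3⟩ := p
  obtain ⟨q0, q1, q2, q3⟩ := q
  simp only at hpI hqI hpn hqn
  subst hpI
  subst hqI
  have e1 := hall ⟨1, 0, 0, 0⟩
  have e2 := hall ⟨0, 1, 0, 0⟩
  have e3 := hall ⟨0, 0, 1, 0⟩
  have e4 := hall ⟨0, 0, 0, 1⟩
  simp only [nr, nf, QuaternionAlgebra.mk_mul_mk, QuaternionAlgebra.mk_add_mk] at e1 e2 e3 e4 hpq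
  have f1 : b * (p2 * q3 + p3 * q2) = 0 := by
    linear_combination e1 + hpq + (a * b * p3 * q3 + a * b * q3 ^ 2 + b * p2 * q2 + b * p2 * q3 +
      b * p3 * q2 + b * q2 * q3 + b * q2 ^ 2 - p0 * q0 - q0 ^ 2) * h2
  have f2 : b * (a * (p2 * q3 + p3 * q2 + p3 * q3) + p2 * q2 + p3 * q2) = 0 := by
    linear_combination e2 + a * hpq + (-(a * b * p2 * q2) + a * b * p2 * q3 - a * b * p3 * q2 +
      a * b * p3 * q3 + a * b * q2 * q3 + a * b * q2 ^ 2 - a * p0 * q0 - a * q0 ^ 2 -
      a ^ 2 * b * p3 * q3 + a ^ 2 * b * q3 ^ 2 + b * p2 * q2 + b * p3 * q2) * h2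
  have f3 : b ^ 2 * (p2 * q3 + p3 * q2 + p3 * q3) = 0 := by
    linear_combination e3 + b * hpq + (a * b ^ 2 * p3 * q3 - a * b ^ 2 * p3 ^ 2 + b * p0 * q0 +
      b * p0 ^ 2 - b ^ 2 * p2 * p3 - b ^ 2 * p2 * q2 - b ^ 2 * p2 ^ 2) * h2
  have f4 : b ^ 2 * (a * (p2 * q3 + p3 * q2) + p2 * q2) = 0 := by
    linear_combination e4 + a * b * hpq + (a * b * p0 * q0 + a * b * p0 ^ 2 - a * b ^ 2 * p2 * p3 +
      a * b ^ 2 * p2 * q2 - a * b ^ 2 * p2 ^ 2 - a ^ 2 * b ^ 2 * p3 * q3 -
      a ^ 2 * b ^ 2 * p3 ^ 2) * h2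
  have hb2 : b ^ 2 ≠ 0 := pow_ne_zero 2 hb
  have g1 := (mul_eq_zero.mp f1).resolve_left hb
  have g2 := (mul_eq_zero.mp f2).resolve_left hb
  have g3 := (mul_eq_zero.mp f3).resolve_left hb2
  have g4 := (mul_eq_zero.mp f4).resolve_left hb2
  have k1 : p3 * q3 = 0 := by linear_combination g3 - g1
  have k2 : p2 * q2 = 0 := by linear_combination g4 - a * g1
  have k3 : p3 * q2 = 0 := by linear_combination g2 - a * g1 - a * k1 - k2
  have k4 : p2 * q3 = 0 := by linear_combination g1 - k3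
  by_cases hp2 : p2 = 0
  · have hp3 : p3 ≠ 0 := fun h => hpn ⟨hp2, h⟩
    exact hqn ⟨(mul_eq_zero.mp k3).resolve_left hp3, (mul_eq_zero.mp k1).resolve_left hp3⟩
  · exact hqn ⟨(mul_eq_zero.mp k2).resolve_left hp2, (mul_eq_zero.mp k4).resolve_left hp2⟩

end conj

end Vale.Agent.P011.H706.C2
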