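import Vale.Agent.P011.H706.C2.Odd
import Vale.Agent.P011.H889.C2.Dec

/-!
The norm-one group of a quaternion algebra over a global function field of characteristic two: the
elements close to one at the ramified places, and of a given level at some of them, are products of
commutators of elements of norm one with elements of this level.
-/

set_option linter.unusedSectionVars false

namespace Vale.Agent.P011.H706.C2

open Vale.Agent.P011.H738 Vale.Agent.P011.H271 Vale.Agent.P011.H477.C2
open Vale.Agent.P011.H974.R6 (Ev)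
open scoped commutatorElement

variable {F : Type} [Field F] [GFF F] {a b : F}

/-- **The elements of norm one which are close to one at the ramified places and of level `m` at
the places of `T` belong to every normal subgroup which contains the commutators with the elements
of level `m` at the places of `T`.** -/
theorem mp_lev (h2 : (2 : F) = 0) (hA : Ani a b) {T : Finset (Place F)}
    (hT : ∀ v ∈ T, Ram a b v) {m : F} (hm0 : m ≠ 0)
    (N : Subgroup (SL a b)) [N.Normal]
    (hN : ∀ u z : SL a b, (∀ v ∈ T, v.abv (tr ((z : (Q2 a b)ˣ) : Q2 a b)) ≤ v.abv m) → ⁅u, z⁆ ∈ N)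
    (g : SL a b) (h1 : ∀ v : Place F, Ram a b v → v.abv (tr ((g : (Q2 a b)ˣ) : Q2 a b)) < 1)
    (h3 : ∀ v ∈ T, v.abv (tr ((g : (Q2 a b)ˣ) : Q2 a b)) < v.abv m) : g ∈ N := by
  by_cases hg1 : ((g : (Q2 a b)ˣ) : Q2 a b) = 1
  · have : g = 1 := Subtype.ext (Units.ext hg1)
    rw [this]
    exact N.one_mem
  obtain ⟨y1, y2, hn1, hn2, hy, hR⟩ := H889.C2.exists_dec h2 hA (ram_finite h2 hA).toFinset
    (fun v hv => (Set.Finite.mem_toFinset _).mp hv) (y := ((g : (Q2 a b)ˣ) : Q2 a b)) g.2 hg1
    (fun v hv => h1 v ((Set.Finite.mem_toFinset _).mp hv))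
  have hR' : ∀ v, Ram a b v → _ := fun v hv => hR v ((Set.Finite.mem_toFinset _).mpr hv)
  let g1 : SL a b := ⟨unitOf y1 (by rw [hn1]; exact one_ne_zero), hn1⟩
  let g2 : SL a b := ⟨unitOf y2 (by rw [hn2]; exact one_ne_zero), hn2⟩
  have hg : g = g1 * g2 := Subtype.ext (Units.ext hy)
  rw [hg]
  refine N.mul_mem (mp_odd h2 hA hT N hN g1 ⟨fun v hv => ?_, fun v hv => ?_⟩)
    (mp_odd h2 hA hT N hN g2 ⟨fun v hv => ?_, fun v hv => ?_⟩)
  · exact ⟨(hR' v hv).1.2.1, (hR' v hv).1.1⟩
  · exact (hR' v (hT v hv)).1.2.2 m (h3 v hv)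
  · exact ⟨(hR' v hv).2.2.1, (hR' v hv).2.1⟩
  · exact (hR' v (hT v hv)).2.2.2 m (h3 v hv)

end Vale.Agent.P011.H706.C2
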