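import Vale.Agent.P011.H706.C2.HQDef

/-!
Quaternion algebras with a generator of trace one: the conjugation, the intertwiner of two elements
of norm one with the same trace.
-/

namespace Vale.Agent.P011.H706.C2

open Vale.Agent.P011.H477.C2

section quat

variable {F : Type} [Field F] {a b : F}

/-- The conjugate. -/
def cj (x : Q2 a b) : Q2 a b := ⟨x.re + x.imI, -x.imI, -x.imJ, -x.imK⟩

theorem mul_cj (x : Q2 a b) : x * cj x = algebraMap F (Q2 a b) (nr x) := by
  ext
  · simp only [cj, nr, nf, QuaternionAlgebra.re_mul, QuaternionAlgebra.algebraMap_eq]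
    ring
  · simp only [cj, nr, nf, QuaternionAlgebra.imI_mul, QuaternionAlgebra.algebraMap_eq]
    ring
  · simp only [cj, nr, nf, QuaternionAlgebra.imJ_mul, QuaternionAlgebra.algebraMap_eq]
    ring
  · simp only [cj, nr, nf, QuaternionAlgebra.imK_mul, QuaternionAlgebra.algebraMap_eq]
    ring

theorem cj_mul (x : Q2 a b) : cj x * x = algebraMap F (Q2 a b) (nr x) := by
  ext
  · simp only [cj, nr, nf, QuaternionAlgebra.re_mul, QuaternionAlgebra.algebraMap_eq]
    ring
  · simp only [cj, nr, nf, QuaternionAlgebra.imI_mul, QuaternionAlgebra.algebraMap_eq]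
    ring
  · simp only [cj, nr, nf, QuaternionAlgebra.imJ_mul, QuaternionAlgebra.algebraMap_eq]
    ring
  · simp only [cj, nr, nf, QuaternionAlgebra.imK_mul, QuaternionAlgebra.algebraMap_eq]
    ring

theorem cj_eq (x : Q2 a b) : cj x = algebraMap F (Q2 a b) (tr x) - x := by
  ext
  · simp only [cj, tr, QuaternionAlgebra.algebraMap_eq, QuaternionAlgebra.re_sub]
    ring
  · simp only [cj, QuaternionAlgebra.algebraMap_eq, QuaternionAlgebra.imI_sub]
    ring
  · simp only [cj, QuaternionAlgebra.algebraMap_eq, QuaternionAlgebra.imJ_sub]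
    ring
  · simp only [cj, QuaternionAlgebra.algebraMap_eq, QuaternionAlgebra.imK_sub]
    ring

theorem nr_cj (x : Q2 a b) : nr (cj x) = nr x := by
  simp only [nr, nf, cj]
  ring

/-- The unit defined by an element of nonzero norm. -/
def unitOf (x : Q2 a b) (hx : nr x ≠ 0) : (Q2 a b)ˣ where
  val := x
  inv := (nr x)⁻¹ • cj x
  val_inv := by
    rw [mul_smul_comm, mul_cj, Algebra.smul_def, ← map_mul, inv_mul_cancel₀ hx, map_one]
  inv_val := by
    rw [smul_mul_assoc, cj_mul, Algebra.smul_def, ← map_mul, inv_mul_cancel₀ hx, map_one]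

theorem val_unitOf (x : Q2 a b) (hx : nr x ≠ 0) : ((unitOf x hx : (Q2 a b)ˣ) : Q2 a b) = x := rfl

/-- The norm on the group of units. -/
def nrU : (Q2 a b)ˣ →* Fˣ where
  toFun x := ⟨nr (x : Q2 a b), nr ((x⁻¹ : (Q2 a b)ˣ) : Q2 a b),
    by rw [← nr_mul, ← Units.val_mul, mul_inv_cancel]; exact nr_one,
    by rw [← nr_mul, ← Units.val_mul, inv_mul_cancel]; exact nr_one⟩
  map_one' := by ext; exact nr_one
  map_mul' x y := by ext; exact nr_mul _ _

theorem nrU_val (x : (Q2 a b)ˣ) : ((nrU x : Fˣ) : F) = nr (x : Q2 a b) := rfl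

theorem inv_eq_cj {x : (Q2 a b)ˣ} (hx : nr (x : Q2 a b) = 1) :
    ((x⁻¹ : (Q2 a b)ˣ) : Q2 a b) = cj (x : Q2 a b) := by
  have h := mul_cj (x : Q2 a b)
  rw [hx, map_one] at h
  calc ((x⁻¹ : (Q2 a b)ˣ) : Q2 a b) =
        ((x⁻¹ : (Q2 a b)ˣ) : Q2 a b) * ((x : Q2 a b) * cj (x : Q2 a b)) := by
        rw [h, mul_one]
    _ = cj (x : Q2 a b) := by rw [← mul_assoc, Units.inv_mul, one_mul]

theorem sq_eq (x : Q2 a b) : x * x = tr x • x - algebraMap F (Q2 a b) (nr x) := by
  ext
  · simp only [nr, nf, tr, QuaternionAlgebra.re_mul, QuaternionAlgebra.algebraMap_eq,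
      QuaternionAlgebra.re_sub, QuaternionAlgebra.re_smul, smul_eq_mul]
    ring
  · simp only [nr, nf, tr, QuaternionAlgebra.imI_mul, QuaternionAlgebra.algebraMap_eq,
      QuaternionAlgebra.imI_sub, QuaternionAlgebra.imI_smul, smul_eq_mul]
    ring
  · simp only [nr, nf, tr, QuaternionAlgebra.imJ_mul, QuaternionAlgebra.algebraMap_eq,
      QuaternionAlgebra.imJ_sub, QuaternionAlgebra.imJ_smul, smul_eq_mul]
    ring
  · simp only [nr, nf, tr, QuaternionAlgebra.imK_mul, QuaternionAlgebra.algebraMap_eq,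
      QuaternionAlgebra.imK_sub, QuaternionAlgebra.imK_smul, smul_eq_mul]
    ring

theorem tr_add (x y : Q2 a b) : tr (x + y) = tr x + tr y := by
  simp only [tr, QuaternionAlgebra.re_add, QuaternionAlgebra.imI_add]
  ring

theorem tr_sub (x y : Q2 a b) : tr (x - y) = tr x - tr y := by
  simp only [tr, QuaternionAlgebra.re_sub, QuaternionAlgebra.imI_sub]
  ring

theorem tr_smul (c : F) (x : Q2 a b) : tr (c • x) = c * tr x := by
  simp only [tr, QuaternionAlgebra.re_smul, QuaternionAlgebra.imI_smul, smul_eq_mul]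
  ring

theorem tr_one : tr (1 : Q2 a b) = 2 := by
  simp [tr]

theorem tr_algebraMap (c : F) : tr (algebraMap F (Q2 a b) c) = 2 * c := by
  simp [tr, QuaternionAlgebra.algebraMap_eq]

theorem tr_mul_comm (x y : Q2 a b) : tr (x * y) = tr (y * x) := by
  simp only [tr, QuaternionAlgebra.re_mul, QuaternionAlgebra.imI_mul]
  ring

theorem tr_cj (x : Q2 a b) : tr (cj x) = tr x := by
  simp only [tr, cj]
  ring

theorem nr_smul (c : F) (x : Q2 a b) : nr (c • x) = c ^ 2 * nr x := by
  simp only [nr, nf, QuaternionAlgebra.re_smul, QuaternionAlgebra.imI_smul,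
    QuaternionAlgebra.imJ_smul, QuaternionAlgebra.imK_smul, smul_eq_mul]
  ring

theorem nr_add (x y : Q2 a b) : nr (x + y) = nr x + nr y + tr (x * cj y) := by
  simp only [nr, nf, cj, tr, QuaternionAlgebra.re_mul, QuaternionAlgebra.imI_mul,
    QuaternionAlgebra.re_add, QuaternionAlgebra.imI_add, QuaternionAlgebra.imJ_add,
    QuaternionAlgebra.imK_add]
  ring

theorem nr_sub (x y : Q2 a b) : nr (x - y) = nr x + nr y - tr (x * cj y) := by
  simp only [nr, nf, cj, tr, QuaternionAlgebra.re_mul, QuaternionAlgebra.imI_mul,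
    QuaternionAlgebra.re_sub, QuaternionAlgebra.imI_sub, QuaternionAlgebra.imJ_sub,
    QuaternionAlgebra.imK_sub]
  ring

theorem cj_cj (x : Q2 a b) : cj (cj x) = x := by
  ext <;> simp [cj]

theorem nr_sub_one {x : Q2 a b} (hx : nr x = 1) : nr (x - 1) = 2 - tr x := by
  have h : nr (x - 1) = nr x + 1 - tr x := by
    simp only [nr, nf, tr, QuaternionAlgebra.re_sub, QuaternionAlgebra.imI_sub,
      QuaternionAlgebra.imJ_sub, QuaternionAlgebra.imK_sub, QuaternionAlgebra.re_one,
      QuaternionAlgebra.imI_one, QuaternionAlgebra.imJ_one, QuaternionAlgebra.imK_one]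
    ring
  rw [h, hx]
  ring

/-- The intertwiner of `w` and `z` of norm one with the same trace. -/
theorem intertwine {w z : Q2 a b} (hw : nr w = 1) (hz : nr z = 1) (h : tr w = tr z) :
    w * (w - cj z) = (w - cj z) * z := by
  rw [mul_sub, sub_mul, sq_eq w, hw, cj_mul, hz, h, cj_eq z, mul_sub, map_one,
    ← Algebra.commutes, ← Algebra.smul_def]
  abel

theorem nr_intertwine {w z y : Q2 a b} (hw : nr w = 1) (hz : nr z = 1) (h : tr w = tr z)
    (hy : w = y * z) : nr (w - cj z) = 2 + tr y - tr z ^ 2 := by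
  have h1 : nr (w - cj z) = nr w + nr z - tr (w * z) := by
    rw [nr_sub, cj_cj, nr_cj]
  have h2 : tr (w * z) = tr z * tr z - tr y := by
    have h3 : w * z = tr z • w - y := by
      rw [hy, mul_assoc, sq_eq z, hz, map_one, mul_sub, mul_one, mul_smul_comm]
    rw [h3, tr_sub, tr_smul, h]
  rw [h1, h2, hw, hz]
  ring

end quat

end Vale.Agent.P011.H706.C2
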