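import Vale.Agent.P011.H706.C2.Conj
import Vale.Agent.P011.H704.R6.Apx

/-!
Characteristic two: weak approximation for the elements of trace zero with a given square.
-/

open Topology

set_option linter.unusedSectionVars false

namespace Vale.Agent.P011.H706.C2

open Vale.Agent.P011.H738 Vale.Agent.P011.H271 Vale.Agent.P011.H477.C2

section cont

variable {L : Type} [NormedField L] {a b : L}

/-- The coordinates. -/
def mk4 (a b : L) (t : L × L × L × L) : Q2 a b := ⟨t.1, t.2.1, t.2.2.1, t.2.2.2⟩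

/-- The first coordinate of the conjugate of `p`, as a function of the conjugating element. -/
def cR {L : Type} [Field L] {a b : L} (p g : Q2 a b) : L := (g * p * cj g).re / nr g

theorem cR_of_conj {L : Type} [Field L] {a b : L} {p q g : Q2 a b} (hg : nr g ≠ 0)
    (h : g * p = q * g) : cR p g = q.re := by
  have h1 : g * p * cj g = nr g • q := by
    rw [h, mul_assoc, mul_cj, ← Algebra.commutes, ← Algebra.smul_def]
  unfold cR
  rw [h1, QuaternionAlgebra.re_smul, smul_eq_mul, mul_div_cancel_left₀ _ hg]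

theorem cont_nr : Continuous fun t : L × L × L × L => nr (mk4 a b t) := by
  unfold nr nf mk4
  fun_prop

theorem cont_num (p : Q2 a b) :
    Continuous fun t : L × L × L × L => (mk4 a b t * p * cj (mk4 a b t)).re := by
  simp only [mk4, cj, QuaternionAlgebra.imI_mul, QuaternionAlgebra.re_mul,
    QuaternionAlgebra.imJ_mul, QuaternionAlgebra.imK_mul]
  fun_prop

/-- The first coordinate of the conjugate depends continuously on the conjugating element. -/
theorem cR_near (p G : Q2 a b) (hG : nr G ≠ 0) {ε : ℝ} (hε : 0 < ε) :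
    ∃ η : ℝ, 0 < η ∧ ∀ t : Q2 a b, ‖t.re - G.re‖ < η → ‖t.imI - G.imI‖ < η →
      ‖t.imJ - G.imJ‖ < η → ‖t.imK - G.imK‖ < η → nr t ≠ 0 ∧ ‖cR p t - cR p G‖ < ε := by
  let x0 : L × L × L × L := (G.re, G.imI, G.imJ, G.imK)
  have e0 : mk4 a b x0 = G := rfl
  have h1 : ContinuousAt (fun t : L × L × L × L => cR p (mk4 a b t)) x0 :=
    ((cont_num p).continuousAt).div cont_nr.continuousAt (by rw [e0]; exact hG)
  have h2 : ∀ᶠ t in 𝓝 x0, nr (mk4 a b t) ≠ 0 :=
    cont_nr.continuousAt.eventually_ne (by rw [e0]; exact hG)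
  have h3 : ∀ᶠ t in 𝓝 x0, ‖cR p (mk4 a b t) - cR p G‖ < ε := by
    have h4 := Metric.tendsto_nhds.mp h1 ε hε
    filter_upwards [h4] with t ht
    rwa [dist_eq_norm, e0] at ht
  obtain ⟨η, hη, h5⟩ := Metric.eventually_nhds_iff.mp (h2.and h3)
  refine ⟨η, hη, fun t h6 h7 h8 h9 => ?_⟩
  have h10 : dist (t.re, t.imI, t.imJ, t.imK) x0 < η := by
    rw [Prod.dist_eq, Prod.dist_eq, Prod.dist_eq, dist_eq_norm, dist_eq_norm, dist_eq_norm,
      dist_eq_norm]
    exact max_lt h6 (max_lt h7 (max_lt h8 h9))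
  exact h5 h10

end cont

section map

variable {F L : Type} [Field F] [Field L] [Algebra F L] {a b : F}

/-- The image of a quaternion over an extension. -/
def mapQ (L : Type) [Field L] [Algebra F L] (g : Q2 a b) :
    Q2 (algebraMap F L a) (algebraMap F L b) :=
  ⟨algebraMap F L g.re, algebraMap F L g.imI, algebraMap F L g.imJ, algebraMap F L g.imK⟩

theorem nr_mapQ (g : Q2 a b) : nr (mapQ L g) = algebraMap F L (nr g) := by
  simp only [nr, nf, mapQ, map_sub, map_add, map_mul, map_pow]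

theorem tr_mapQ (g : Q2 a b) : tr (mapQ L g) = algebraMap F L (tr g) := by
  simp only [tr, mapQ, map_add, map_mul, map_ofNat]

theorem cR_mapQ (p g : Q2 a b) : cR (mapQ L p) (mapQ L g) = algebraMap F L (cR p g) := by
  unfold cR
  rw [nr_mapQ, map_div₀]
  congr 1
  simp only [QuaternionAlgebra.imI_mul, QuaternionAlgebra.re_mul,
    QuaternionAlgebra.imJ_mul, QuaternionAlgebra.imK_mul, map_add, map_sub, map_mul]
  simp only [mapQ, cj, map_neg, map_add, map_one]

end map

section places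

variable {F : Type} [Field F]

/-- Weak approximation for the conjugates of an element of trace zero. -/
theorem approx_conj (h2 : (2 : F) = 0) {a b : F} (hb : b ≠ 0) {p : Q2 a b} (hp : tr p = 0)
    (hpn : ¬ (p.imJ = 0 ∧ p.imK = 0)) (S : Finset (Place F))
    (q : ∀ v : Place F, Q2 (algebraMap F v.comp a) (algebraMap F v.comp b))
    (hq : ∀ v ∈ S, tr (q v) = 0 ∧ ¬ ((q v).imJ = 0 ∧ (q v).imK = 0) ∧
      nr (q v) = algebraMap F v.comp (nr p)) (ε : Place F → ℝ) (hε : ∀ v, 0 < ε v) :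
    ∃ g : Q2 a b, nr g ≠ 0 ∧ ∀ v ∈ S, ‖algebraMap F v.comp (cR p g) - (q v).re‖ < ε v := by
  classical
  have hloc : ∀ v : Place F, ∃ (G : Q2 (algebraMap F v.comp a) (algebraMap F v.comp b)) (η : ℝ),
      0 < η ∧ (v ∈ S → ∀ t : Q2 (algebraMap F v.comp a) (algebraMap F v.comp b),
        ‖t.re - G.re‖ < η → ‖t.imI - G.imI‖ < η → ‖t.imJ - G.imJ‖ < η → ‖t.imK - G.imK‖ < η →
        nr t ≠ 0 ∧ ‖cR (mapQ v.comp p) t - (q v).re‖ < ε v) := by
    intro v
    by_cases hv : v ∈ S
    · have h2' : (2 : v.comp) = 0 := by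
        rw [← map_ofNat (algebraMap F v.comp) 2, h2, map_zero]
      obtain ⟨G, hG, hGp⟩ := exists_conj h2' ((map_ne_zero (algebraMap F v.comp)).mpr hb)
        (p := mapQ v.comp p) (q := q v) (by rw [tr_mapQ, hp, map_zero]) (hq v hv).1
        (fun h => hpn ⟨(map_eq_zero _).mp h.1, (map_eq_zero _).mp h.2⟩) (hq v hv).2.1
        (by rw [(hq v hv).2.2, nr_mapQ])
      obtain ⟨η, hη, h⟩ := cR_near (mapQ v.comp p) G hG (hε v)
      refine ⟨G, η, hη, fun _ t h3 h4 h5 h6 => ?_⟩
      obtain ⟨h7, h8⟩ := h t h3 h4 h5 h6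
      rw [cR_of_conj hG hGp] at h8
      exact ⟨h7, h8⟩
    · exact ⟨0, 1, one_pos, fun h => absurd h hv⟩
  choose G η hη h using hloc
  rcases S.eq_empty_or_nonempty with rfl | hS
  · exact ⟨1, by rw [nr_one]; exact one_ne_zero, fun v hv => absurd hv (Finset.notMem_empty v)⟩
  · let η0 : ℝ := S.inf' hS η
    have hη0 : 0 < η0 := (Finset.lt_inf'_iff hS).mpr fun v _ => hη v
    have hle : ∀ v ∈ S, η0 ≤ η v := fun v hv => Finset.inf'_le _ hv
    obtain ⟨x0, hx0⟩ := H704.R6.place_weak S (fun v => (G v).re) hη0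
    obtain ⟨x1, hx1⟩ := H704.R6.place_weak S (fun v => (G v).imI) hη0
    obtain ⟨x2, hx2⟩ := H704.R6.place_weak S (fun v => (G v).imJ) hη0
    obtain ⟨x3, hx3⟩ := H704.R6.place_weak S (fun v => (G v).imK) hη0
    have key : ∀ v ∈ S, nr (mapQ v.comp (⟨x0, x1, x2, x3⟩ : Q2 a b)) ≠ 0 ∧
        ‖cR (mapQ v.comp p) (mapQ v.comp (⟨x0, x1, x2, x3⟩ : Q2 a b)) - (q v).re‖ < ε v :=
      fun v hv => h v hv _ ((hx0 v hv).trans_le (hle v hv)) ((hx1 v hv).trans_le (hle v hv))
        ((hx2 v hv).trans_le (hle v hv)) ((hx3 v hv).trans_le (hle v hv))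
    refine ⟨⟨x0, x1, x2, x3⟩, ?_, fun v hv => ?_⟩
    · obtain ⟨v, hv⟩ := hS
      have h1 := (key v hv).1
      rw [nr_mapQ] at h1
      exact fun h0 => h1 (by rw [h0, map_zero])
    · have h1 := (key v hv).2
      rwa [cR_mapQ] at h1

/-- **Weak approximation for the first coordinate of the elements of trace zero with a given
square.** -/
theorem approx_p (h2 : (2 : F) = 0) {X : F} (hX : ∀ s : F, ∃ u v, s = u ^ 2 + X * v ^ 2)
    {a b : F} (hb : b ≠ 0) {τ : F} (hτ : ¬ IsSquare τ) (S : Finset (Place F))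
    (t f1 f2 : ∀ v : Place F, v.comp)
    (ht : ∀ v ∈ S, t v ^ 2 + algebraMap F v.comp b * nf (algebraMap F v.comp a) (f1 v) (f2 v) =
      algebraMap F v.comp τ ∧ t v ^ 2 ≠ algebraMap F v.comp τ)
    (ε : Place F → ℝ) (hε : ∀ v, 0 < ε v) :
    ∃ p : Q2 a b, p.imI = 0 ∧ nr p = τ ∧
      ∀ v ∈ S, ‖algebraMap F v.comp p.re - t v‖ < ε v := by
  obtain ⟨p0, hp0, hn0, hp0n⟩ := exists_p (a := a) h2 hX hb τ
  have hτ0 : τ ≠ 0 := by
    rintro rfl
    exact hτ ⟨0, by ring⟩
  obtain ⟨g, hg, hgv⟩ := approx_conj h2 hb hp0 (hp0n hτ) S (fun v => ⟨t v, 0, f1 v, f2 v⟩) (by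
    intro v hv
    have h2' : (2 : v.comp) = 0 := by
      rw [← map_ofNat (algebraMap F v.comp) 2, h2, map_zero]
    obtain ⟨h3, h4⟩ := ht v hv
    refine ⟨?_, ?_, ?_⟩
    · simp only [tr]
      linear_combination t v * h2'
    · rintro ⟨h5, h6⟩
      have h5' : f1 v = 0 := h5
      have h6' : f2 v = 0 := h6
      apply h4
      rw [← h3, h5', h6']
      simp [nf]
    · rw [hn0, ← h3]
      simp only [nr]
      simp only [nf]
      linear_combination (-(algebraMap F v.comp b *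
        ((f1 v) ^ 2 + (f1 v) * (f2 v) + algebraMap F v.comp a * (f2 v) ^ 2))) * h2') ε hε
  set q : Q2 a b := (nr g)⁻¹ • (g * p0 * cj g) with hq
  have htq : tr q = 0 := by
    rw [hq, tr_smul, tr_mul_comm, ← mul_assoc, cj_mul, ← Algebra.smul_def, tr_smul, hp0, mul_zero,
      mul_zero]
  have hqn : nr q = τ := by
    rw [hq, nr_smul, nr_mul, nr_mul, nr_cj, hn0]
    field_simp
  refine ⟨q, ?_, hqn, fun v hv => ?_⟩
  · simp only [tr] at htq
    linear_combination htq - q.re * h2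
  · have h5 : q.re = cR p0 g := by
      rw [hq, QuaternionAlgebra.re_smul, smul_eq_mul, cR, div_eq_inv_mul]
    rw [h5]
    exact hgv v hv

end places

end Vale.Agent.P011.H706.C2
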