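import Vale.Agent.P011.H706.C2.Apx
import Vale.Agent.P011.H706.C2.FinH
import Vale.Agent.P011.H477.C2.LocT
import Vale.Agent.P011.H465.R6B
import Vale.Agent.P011.H983.TwoBasisGF

/-!
Characteristic two: the data of the two steps for `y = τ i`, `τ = tr y`.
-/

set_option linter.unusedSectionVars false

namespace Vale.Agent.P011.H706.C2

open Vale.Agent.P011.H738 Vale.Agent.P011.H271 Vale.Agent.P011.H477.C2
open Vale.Agent.P011.H974.R6 (Ev)

section alg

variable {F : Type} [Field F] {a b : F}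

/-- The element `τ i`. -/
def yt (b τ : F) : Q2 (τ⁻¹ ^ 2) b := ⟨0, τ, 0, 0⟩

theorem nr_yt {τ : F} (hτ : τ ≠ 0) : nr (yt b τ) = 1 := by
  simp only [nr, nf, yt]
  field_simp
  ring

theorem tr_yt (τ : F) : tr (yt b τ) = τ := by
  simp only [tr, yt]
  ring

/-- The element `z` attached to an element `p` of trace zero. -/
def zt (b τ : F) (p : Q2 (τ⁻¹ ^ 2) b) : Q2 (τ⁻¹ ^ 2) b := τ⁻¹ • (cj (yt b τ - 1) * p)

theorem zt_spec (h2 : (2 : F) = 0) {τ : F} (hτ : τ ≠ 0) {p : Q2 (τ⁻¹ ^ 2) b} (hp : p.imI = 0)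
    (hn : nr p = τ) : nr (zt b τ p) = 1 ∧ tr (yt b τ * zt b τ p) = tr (zt b τ p) ∧
      tr (zt b τ p) = p.re := by
  have hn1 : nr (yt b τ - 1) = τ := by
    rw [nr_sub_one (nr_yt hτ), tr_yt]
    linear_combination (1 - τ) * h2
  have htp : tr p = 0 := by
    simp only [tr]
    rw [hp]
    linear_combination p.re * h2
  have h1 : (yt b τ - 1) * zt b τ p = p := by
    unfold zt
    rw [mul_smul_comm, ← mul_assoc, mul_cj, hn1, ← Algebra.smul_def, smul_smul,
      inv_mul_cancel₀ hτ, one_smul]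
  refine ⟨?_, ?_, ?_⟩
  · unfold zt
    rw [nr_smul, nr_mul, nr_cj, hn1, hn]
    field_simp
  · have h3 : yt b τ * zt b τ p = (yt b τ - 1) * zt b τ p + zt b τ p := by
      rw [sub_mul, one_mul, sub_add_cancel]
    rw [h3, h1, tr_add, htp, zero_add]
  · unfold zt
    rw [tr_smul]
    have h3 : tr (cj (yt b τ - 1) * p) = -τ * p.re + (τ - 1) * p.re * 2 := by
      simp only [tr, cj, yt, QuaternionAlgebra.re_mul, QuaternionAlgebra.imI_mul,
        QuaternionAlgebra.re_sub, QuaternionAlgebra.imI_sub, QuaternionAlgebra.imJ_sub,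
        QuaternionAlgebra.imK_sub, QuaternionAlgebra.re_one, QuaternionAlgebra.imI_one,
        QuaternionAlgebra.imJ_one, QuaternionAlgebra.imK_one, hp]
      ring
    rw [h3, h2]
    have h4 : τ⁻¹ * τ = 1 := inv_mul_cancel₀ hτ
    linear_combination (-p.re) * h4 - p.re * h2

theorem nr_lin (u w : F) (z : Q2 a b) (hz : nr z = 1) :
    nr (algebraMap F (Q2 a b) u + w • z) = u ^ 2 + u * w * tr z + w ^ 2 := by
  have h1 : nr (algebraMap F (Q2 a b) u) = u ^ 2 := by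
    simp only [nr, nf, QuaternionAlgebra.algebraMap_eq]
    ring
  rw [nr_add, h1, nr_smul, hz, ← Algebra.smul_def, tr_smul, tr_cj, tr_smul]
  ring

end alg

section glob

variable {F : Type} [Field F] [GFF F]

/-- The places where an element is not a unit. -/
theorem abv_ne_one_finite {x : F} (hx : x ≠ 0) : {v : Place F | v.abv x ≠ 1}.Finite := by
  refine (H465.R6B.finite_not_units hx hx).subset fun v hv h => hv h.1

/-- The data of the first step, `y = τ i`. -/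
theorem dat_pres (h2 : (2 : F) = 0) {b τ r : F} (hb : b ≠ 0) (hτ : ¬ IsSquare τ) (hr : r ≠ 0)
    (hloc : ∀ v : Place F, (v.abv τ < 1 ∧ ¬ Ev v (algebraMap F v.comp τ)) ∨
      ∃ x y : v.comp, nf (algebraMap F v.comp (τ⁻¹ ^ 2)) x y = algebraMap F v.comp b)
    (R : Finset (Place F)) (hR : ∀ v ∈ R, Ram (τ⁻¹ ^ 2) b v) :
    ∃ z h₁ h₂ : Q2 (τ⁻¹ ^ 2) b, nr z = 1 ∧ tr (yt b τ * z) = tr z ∧
      h₁ * yt b τ = yt b τ * h₁ ∧ h₂ * z = z * h₂ ∧ nr h₁ ≠ 0 ∧ nr h₂ ≠ 0 ∧
      r = nr h₁ * nr h₂ ∧ ∀ v ∈ R, v.abv (tr z) = v.abv τ := by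
  classical
  obtain ⟨X, hX⟩ := H983.exists_twoBasis_gff (k := F) inferInstance h2
  have hτ0 : τ ≠ 0 := by
    rintro rfl
    exact hτ ⟨0, by ring⟩
  obtain ⟨v0⟩ := Hey.nonempty_place F
  let S : Finset (Place F) := insert v0
    (R ∪ (H465.R6B.finite_not_units hτ0 hr).toFinset)
  have hcomp : ∀ (v : Place F) {c : F}, c ≠ 0 → algebraMap F v.comp c ≠ 0 :=
    fun v c hc => (map_ne_zero _).mpr hc
  have hinv : ∀ v : Place F, algebraMap F v.comp (τ⁻¹ ^ 2) = (algebraMap F v.comp τ)⁻¹ ^ 2 := by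
    intro v
    rw [map_pow, map_inv₀]
  choose t f1 f2 ht1 ht2 ht3 η hη hT using fun v : Place F =>
    loc_T' h2 v (hcomp v hτ0) (hcomp v hb) (hcomp v hr) (by
      rw [← hinv, norm_alg]
      exact hloc v)
  obtain ⟨p, hpI, hpn, hpv⟩ := approx_p h2 hX.ex (a := τ⁻¹ ^ 2) hb hτ S t f1 f2
    (fun v _ => ⟨by rw [hinv]; exact ht1 v, ht2 v⟩)
    (fun v => min (η v) (v.abv τ)) (fun v => lt_min (hη v) (v.abv.pos hτ0))
  obtain ⟨hz1, hz2, hz3⟩ := zt_spec h2 hτ0 hpI hpn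
  set z := zt b τ p with hz
  have hTv : ∀ v ∈ S, ‖algebraMap F v.comp (tr z) - t v‖ < η v := by
    intro v hv
    rw [hz3]
    exact (hpv v hv).trans_le (min_le_left _ _)
  have hT0 : tr z ≠ 0 := by
    intro h
    have h3 := (hT v0 _ (hTv v0 (Finset.mem_insert_self _ _))).1
    rw [h, map_zero] at h3
    exact h3 rfl
  -- the global point
  have h14 : ∀ c : F, 1 - 4 * c ≠ 0 := by
    intro c h
    have : (4 : F) = 2 * 2 := by norm_num
    rw [this, h2] at h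
    simp at h
  obtain ⟨x, y, u, w, h5, h6, h7⟩ := hasse4 (a := τ⁻¹ ^ 2) (b := (tr z)⁻¹ ^ 2) (r := r)
    (h14 _) (h14 _) hr (by
    intro P
    by_cases hP : P.abv τ = 1 ∧ P.abv r = 1
    · refine loc_ok_units ?_ ?_ hP.2 _
      · rw [map_pow, map_inv₀, hP.1]
        norm_num
      · have h4 : (4 : F) = 0 := by
          have : (4 : F) = 2 * 2 := by norm_num
          rw [this, h2, mul_zero]
        rw [h4, zero_mul, sub_zero, map_one]
    · have hPS : P ∈ S := by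
        refine Finset.mem_insert_of_mem (Finset.mem_union_right _ ?_)
        rw [Set.Finite.mem_toFinset]
        exact hP
      obtain ⟨-, x, y, z', w, h8, h9⟩ := hT P _ (hTv P hPS)
      refine ⟨x, y, z', w, ?_, ?_⟩
      · rw [hinv]; exact h8
      · rw [hinv, h9, map_pow, map_inv₀])
  refine ⟨z, (nf (τ⁻¹ ^ 2) x y)⁻¹ • ⟨x, y, 0, 0⟩,
    algebraMap F _ u + (w * (tr z)⁻¹) • z, hz1, hz2, ?_, ?_, ?_, ?_, ?_, ?_⟩
  · rw [smul_mul_assoc, mul_smul_comm]
    congr 1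
    ext <;> simp only [yt, QuaternionAlgebra.re_mul, QuaternionAlgebra.imI_mul,
      QuaternionAlgebra.imJ_mul, QuaternionAlgebra.imK_mul] <;> ring
  · rw [add_mul, mul_add, smul_mul_assoc, mul_smul_comm, Algebra.commutes]
  · have h8 : nr (⟨x, y, 0, 0⟩ : Q2 (τ⁻¹ ^ 2) b) = nf (τ⁻¹ ^ 2) x y := by
      simp only [nr]
      simp only [nf]
      ring
    rw [nr_smul, h8]
    exact mul_ne_zero (pow_ne_zero _ (inv_ne_zero h5)) h5
  · rw [nr_lin _ _ _ hz1]
    have h8 : u ^ 2 + u * (w * (tr z)⁻¹) * tr z + (w * (tr z)⁻¹) ^ 2 = nf ((tr z)⁻¹ ^ 2) u w := by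
      simp only [nf]
      field_simp
    rw [h8]
    exact h6
  · have h8 : nr (⟨x, y, 0, 0⟩ : Q2 (τ⁻¹ ^ 2) b) = nf (τ⁻¹ ^ 2) x y := by
      simp only [nr]
      simp only [nf]
      ring
    have h9 : u ^ 2 + u * (w * (tr z)⁻¹) * tr z + (w * (tr z)⁻¹) ^ 2 = nf ((tr z)⁻¹ ^ 2) u w := by
      simp only [nf]
      field_simp
    rw [nr_lin _ _ _ hz1, nr_smul, h8, h9, ← h7]
    generalize nf (τ⁻¹ ^ 2) x y = A at h5
    field_simp
  · intro v hv
    have hvS : v ∈ S := Finset.mem_insert_of_mem (Finset.mem_union_left _ hv)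
    have h8 : ‖t v‖ = v.abv τ := by
      rw [ht3 v (by rw [← hinv]; exact hR v hv), norm_alg]
    have h9 : ‖algebraMap F v.comp (tr z) - t v‖ < v.abv τ := by
      rw [hz3]
      exact (hpv v hvS).trans_le (min_le_right _ _)
    have h10 : algebraMap F v.comp (tr z) = t v + (algebraMap F v.comp (tr z) - t v) := by ring
    rw [← norm_alg, h10, H974.R6.norm_add_of_lt v (by rw [h8]; exact h9), h8]

end glob

end Vale.Agent.P011.H706.C2
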